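import Vale.Agent.P042.R2.H757.Spec

/-!
P042.MultiplicativeStatistics, row NUM.
-/

namespace Vale.Agent.P042.H49

open Filter Asymptotics Topology Vale.Agent.P042.H757

theorem little (θ K : ℝ) (hθ : θ < 1) (hθ0 : 0 < θ) :
    (fun L : ℝ => K * (L ^ θ + 5) * (1 + Real.log L)) =o[atTop] (fun L : ℝ => L) := by
  have h0 : (fun _ : ℝ => (5 : ℝ)) =O[atTop] (fun L : ℝ => L ^ θ) :=
    ((isLittleO_const_left.2 (Or.inr (tendsto_norm_atTop_atTop.comp
      (tendsto_rpow_atTop hθ0)))).isBigO)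
  have h1 : (fun L : ℝ => K * (L ^ θ + 5)) =O[atTop] (fun L : ℝ => L ^ θ) :=
    ((isBigO_refl _ _).add h0).const_mul_left K
  have h2 : (fun L : ℝ => 1 + Real.log L) =o[atTop] (fun L : ℝ => L ^ (1 - θ)) := by
    refine IsLittleO.add ?_ (isLittleO_log_rpow_atTop (by linarith))
    exact isLittleO_const_left.2 (Or.inr (tendsto_norm_atTop_atTop.comp
      (tendsto_rpow_atTop (by linarith))))
  refine (h1.mul_isLittleO h2).congr' (Eventually.of_forall fun L => rfl) ?_
  filter_upwards [eventually_gt_atTop 0] with L hL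
  rw [← Real.rpow_add hL]
  simp

/-- row NUM -/
theorem rowNum : StNum := by
  intro k hk K ε hK hε
  obtain ⟨θ, hθ⟩ : ∃ θ : ℝ, θ = (2 * k + 1 : ℝ) / (2 * k + 2) := ⟨_, rfl⟩
  have hk0 : (0 : ℝ) ≤ k := Nat.cast_nonneg k
  have hθ1 : θ < 1 := by
    rw [hθ, div_lt_one (by positivity)]
    linarith
  have hθ0 : 0 < θ := by rw [hθ]; positivity
  have h1 := (little θ K hθ1 hθ0).def hε
  have h2 := (Real.tendsto_log_atTop.comp tendsto_natCast_atTop_atTop).eventually h1
  obtain ⟨N0, hN0⟩ := eventually_atTop.1 h2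
  obtain ⟨g, hg⟩ : ∃ g : ℕ → ℝ, g = fun N : ℕ => Real.exp (K * ((Real.log N) ^ θ + 5) *
    (1 + Real.log (Real.log N))) := ⟨_, rfl⟩
  have hg0 : ∀ N, 0 ≤ g N := by intro N; rw [hg]; positivity
  refine ⟨1 + ∑ N ∈ Finset.range N0, g N, ?_, ?_⟩
  · have := Finset.sum_nonneg fun N (_ : N ∈ Finset.range N0) => hg0 N
    linarith
  intro N hN
  rw [← hθ]
  have hN1 : (1 : ℝ) ≤ N := by exact_mod_cast (by omega : 1 ≤ N)
  have hNe : 1 ≤ (N : ℝ) ^ ε := Real.one_le_rpow hN1 hε.le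
  have hS := Finset.sum_nonneg fun N (_ : N ∈ Finset.range N0) => hg0 N
  have key : g N ≤ (1 + ∑ N ∈ Finset.range N0, g N) * (N : ℝ) ^ ε := by
    rcases lt_or_ge N N0 with h | h
    · have h3 : g N ≤ ∑ N ∈ Finset.range N0, g N :=
        Finset.single_le_sum (fun N _ => hg0 N) (Finset.mem_range.2 h)
      calc g N ≤ (1 + ∑ N ∈ Finset.range N0, g N) * 1 := by linarith
        _ ≤ _ := mul_le_mul_of_nonneg_left hNe (by linarith)
    · have h3 := hN0 N h
      simp only [Function.comp_apply, Real.norm_eq_abs] at h3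
      have h4 : K * ((Real.log N) ^ θ + 5) * (1 + Real.log (Real.log N)) ≤ ε * Real.log N := by
        refine (le_abs_self _).trans (h3.trans ?_)
        rw [abs_of_nonneg (Real.log_nonneg hN1)]
      have h5 : g N ≤ (N : ℝ) ^ ε := by
        rw [hg, Real.rpow_def_of_pos (by linarith), mul_comm (Real.log N)]
        exact Real.exp_le_exp.2 h4
      calc g N ≤ 1 * (N : ℝ) ^ ε := by linarith
        _ ≤ _ := mul_le_mul_of_nonneg_right (by linarith) (by linarith)
  refine le_of_eq_of_le ?_ key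
  rw [hg]

end Vale.Agent.P042.H49
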